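import Vale.Agent.Lib.P368.DL.FinalL

/-!
# P368: at every entangling depth only the backward light cone above the second entangling layer counts

The circuit is `C₁` followed by `C₂`.  The lower part `C₁` has at most two entangling layers and is
otherwise arbitrary.  The upper part `C₂` has at most `m + 2` entangling layers.  The number of ancillas
is arbitrary.  Let `K = 2 ^ (m + 1)` and let `V = cone C₂ {o}` be the backward light cone of the output
qubit `o` through `C₂`.

(I) For every `m` and `ε > 0` there is `c > 0` such that, with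
`F = c * (n / (log₂ n) ^ (m + 3)) ^ (K / (K - 1))`: if `|V| ≤ F`, or if all gates of `C₂` act on at most
`s` qubits and `s ^ (m + 2) ≤ F`, then the parity correlation is at most `ε` in absolute value and
worst-case advantage `ε` is impossible.

(II) `V` is contained in every set of qubits that contains `o` and all multiqubit gates of `C₂`.

(III) Every circuit with at most `m + 4` entangling layers is of this form.
-/

namespace Vale.Agent.Results.P368.AllDepthsCone

open Vale.Agent.Lib.P368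

theorem split_countP {α : Type} (p : α → Bool) (j : ℕ) (C : List α) :
    ∀ k : ℕ, C.countP p ≤ k + j →
      ∃ C₁ C₂ : List α, C = C₁ ++ C₂ ∧ C₁.countP p ≤ k ∧ C₂.countP p ≤ j := by
  induction C with
  | nil => intro k _; exact ⟨[], [], rfl, by simp, by simp⟩
  | cons L rest ih =>
    intro k h
    by_cases hp : p L = true
    · rw [List.countP_cons_of_pos hp] at h
      rcases k with _ | k
      · refine ⟨[], L :: rest, rfl, by simp, ?_⟩
        rw [List.countP_cons_of_pos hp]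
        omega
      · obtain ⟨R₁, R₂, e, h1, h2⟩ := ih k (by omega)
        refine ⟨L :: R₁, R₂, by rw [e]; rfl, ?_, h2⟩
        rw [List.countP_cons_of_pos hp]
        omega
    · rw [List.countP_cons_of_neg hp] at h
      obtain ⟨R₁, R₂, e, h1, h2⟩ := ih k h
      refine ⟨L :: R₁, R₂, by rw [e]; rfl, ?_, h2⟩
      rw [List.countP_cons_of_neg hp]
      exact h1

theorem result :
    (∀ (m : ℕ) (ε : ℝ), 0 < ε → ∃ c : ℝ, 0 < c ∧
      ∀ (n a : ℕ) (C₁ C₂ : List (List (Gate (Fin n ⊕ Fin a)))) (o : Fin n ⊕ Fin a),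
        circuitValid (C₁ ++ C₂) → entanglingDepth C₁ ≤ 2 → entanglingDepth C₂ ≤ m + 2 →
        (((cone C₂ {o}).card : ℝ) ≤ c * ((n : ℝ) / (Real.logb 2 n) ^ (m + 3))
            ^ ((2 : ℝ) ^ (m + 1) / ((2 : ℝ) ^ (m + 1) - 1)) ∨
          ∃ s : ℕ, 1 ≤ s ∧ (∀ L ∈ C₂, ∀ g ∈ L, g.supp.card ≤ s) ∧
            (s : ℝ) ^ (m + 2) ≤ c * ((n : ℝ) / (Real.logb 2 n) ^ (m + 3))
              ^ ((2 : ℝ) ^ (m + 1) / ((2 : ℝ) ^ (m + 1) - 1))) →
        |parityCorrelation (C₁ ++ C₂) o| ≤ ε ∧
        ¬ ∀ x : Fin n → Bool,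
            1 / 2 + ε ≤ outProb (circuitOp (C₁ ++ C₂)) o (initState x) (parityBit x)) ∧
    (∀ (n a : ℕ) (C₂ : List (List (Gate (Fin n ⊕ Fin a)))) (o : Fin n ⊕ Fin a)
      (U : Finset (Fin n ⊕ Fin a)), o ∈ U →
      (∀ L ∈ C₂, ∀ g ∈ L, g.isMulti = true → g.supp ⊆ U) → cone C₂ {o} ⊆ U) ∧
    (∀ (m n a : ℕ) (C : List (List (Gate (Fin n ⊕ Fin a)))), entanglingDepth C ≤ m + 4 →
      ∃ C₁ C₂ : List (List (Gate (Fin n ⊕ Fin a))),
        C = C₁ ++ C₂ ∧ entanglingDepth C₁ ≤ 2 ∧ entanglingDepth C₂ ≤ m + 2) := by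
  refine ⟨?_, ?_, ?_⟩
  · intro m ε hε0
    obtain ⟨c, hc, h⟩ := depth_cone_asymp m ε hε0
    refine ⟨c, hc, fun n a C₁ C₂ o hC h₁ h₂ hN => ?_⟩
    have hcone : ((cone C₂ {o}).card : ℝ) ≤ c * ((n : ℝ) / (Real.logb 2 n) ^ (m + 3))
        ^ ((2 : ℝ) ^ (m + 1) / ((2 : ℝ) ^ (m + 1) - 1)) := by
      rcases hN with hN | ⟨s, hs, hfan, hN⟩
      · exact hN
      · have hv2 : circuitValid C₂ := fun L hL => hC L (List.mem_append_right _ hL)
        have h3 := cone_card_fanin C₂ hv2 o s (m + 2) hs h₂ hfan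
        have h4 : ((cone C₂ {o}).card : ℝ) ≤ (s : ℝ) ^ (m + 2) := by exact_mod_cast h3
        exact h4.trans hN
    have h1 := h n a C₁ C₂ o hC h₁ h₂ hcone
    refine ⟨h1, fun hadv => ?_⟩
    have h2 := adv_le_corr (C₁ ++ C₂) hC o ε hadv
    have h3 := le_abs_self (parityCorrelation (C₁ ++ C₂) o)
    linarith
  · intro n a C₂ o U ho hU
    exact cone_subset C₂ {o} U (Finset.singleton_subset_iff.2 ho) hU
  · intro m n a C hd
    exact split_countP layerEntangling (m + 2) C 2 (by unfold entanglingDepth at hd; omega)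

end Vale.Agent.Results.P368.AllDepthsCone
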