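import Vale.Agent.Lib.P368.DH.FinalNA

/-!
# P368: at every entangling depth only the qubits used above the second entangling layer count

The circuit is `C₁` followed by `C₂`.  The lower part `C₁` has at most two entangling layers and is
otherwise arbitrary: any number of ancillas and gates.  The upper part `C₂` has at most `m + 2`
entangling layers; `U` is a set of qubits that contains the output qubit and the supports of all
multiqubit gates of `C₂`.  Let `K = 2 ^ (m + 1)`.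

(I) Let `0 < ε ≤ 1` and `Λ = log₂ (160 * (m + 2) * (|U| + 1) / ε)`.  If `|U| ≤ x ^ K` and
`30 * Λ * (36 * (m + 2) * Λ) ^ (m + 2) * x ^ (K - 1) ≤ n` for some natural number `x`, or
`30 * Λ * (36 * (m + 2) * Λ) ^ (m + 2) * (2 * |U| ^ (1 / K)) ^ (K - 1) ≤ n`, then the parity correlation
is at most `ε` in absolute value, so the worst-case advantage is at most `ε / 2`.

(II) For every `m` and `ε > 0` there is `c > 0` such that
`|U| ≤ c * (n / (log₂ n) ^ (m + 3)) ^ (K / (K - 1))` forces correlation at most `ε` and excludes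
worst-case advantage `ε`.

(III) Every circuit with at most `m + 4` entangling layers is of this form.
-/

namespace Vale.Agent.Results.P368.AllDepthsFreeBase

open Vale.Agent.Lib.P368

theorem split_countP {α : Type} (p : α → Bool) (j : ℕ) (C : List α) :
    ∀ k : ℕ, C.countP p ≤ k + j →
      ∃ C₁ C₂ : List α, C = C₁ ++ C₂ ∧ C₁.countP p ≤ k ∧ C₂.countP p ≤ j := by
  induction C with
  | nil => intro k _; exact ⟨[], [], rfl, by simp, by simp⟩
  | cons L rest ih =>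
    intro k h
    by_cases hp : p L = true
    · rw [List.countP_cons_of_pos hp] at h
      rcases k with _ | k
      · refine ⟨[], L :: rest, rfl, by simp, ?_⟩
        rw [List.countP_cons_of_pos hp]
        omega
      · obtain ⟨R₁, R₂, e, h1, h2⟩ := ih k (by omega)
        refine ⟨L :: R₁, R₂, by rw [e]; rfl, ?_, h2⟩
        rw [List.countP_cons_of_pos hp]
        omega
    · rw [List.countP_cons_of_neg hp] at h
      obtain ⟨R₁, R₂, e, h1, h2⟩ := ih k h
      refine ⟨L :: R₁, R₂, by rw [e]; rfl, ?_, h2⟩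
      rw [List.countP_cons_of_neg hp]
      exact h1

theorem result :
    (∀ (m n a : ℕ) (C₁ C₂ : List (List (Gate (Fin n ⊕ Fin a)))), circuitValid (C₁ ++ C₂) →
      entanglingDepth C₁ ≤ 2 → entanglingDepth C₂ ≤ m + 2 →
      ∀ (U : Finset (Fin n ⊕ Fin a)) (o : Fin n ⊕ Fin a), o ∈ U →
      (∀ L ∈ C₂, ∀ g ∈ L, g.isMulti = true → g.supp ⊆ U) →
      ∀ ε : ℝ, 0 < ε → ε ≤ 1 →
        ((∃ x : ℕ, U.card ≤ x ^ (2 ^ (m + 1)) ∧
            30 * Real.logb 2 (160 * ((m : ℝ) + 2) * ((U.card : ℝ) + 1) / ε)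
              * (36 * ((m : ℝ) + 2)
                * Real.logb 2 (160 * ((m : ℝ) + 2) * ((U.card : ℝ) + 1) / ε)) ^ (m + 2)
              * (x : ℝ) ^ (2 ^ (m + 1) - 1) ≤ n) ∨
          30 * Real.logb 2 (160 * ((m : ℝ) + 2) * ((U.card : ℝ) + 1) / ε)
            * (36 * ((m : ℝ) + 2)
              * Real.logb 2 (160 * ((m : ℝ) + 2) * ((U.card : ℝ) + 1) / ε)) ^ (m + 2)
            * (2 * (U.card : ℝ) ^ ((1 : ℝ) / 2 ^ (m + 1))) ^ (2 ^ (m + 1) - 1) ≤ n) →
        |parityCorrelation (C₁ ++ C₂) o| ≤ ε ∧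
        (∀ δ : ℝ, (∀ x : Fin n → Bool,
            1 / 2 + δ ≤ outProb (circuitOp (C₁ ++ C₂)) o (initState x) (parityBit x)) →
          δ ≤ ε / 2) ∧
        ¬ ∀ x : Fin n → Bool,
            1 / 2 + ε ≤ outProb (circuitOp (C₁ ++ C₂)) o (initState x) (parityBit x)) ∧
    (∀ (m : ℕ) (ε : ℝ), 0 < ε → ∃ c : ℝ, 0 < c ∧
      ∀ (n a : ℕ) (C₁ C₂ : List (List (Gate (Fin n ⊕ Fin a))))
        (U : Finset (Fin n ⊕ Fin a)) (o : Fin n ⊕ Fin a),
        circuitValid (C₁ ++ C₂) → entanglingDepth C₁ ≤ 2 → entanglingDepth C₂ ≤ m + 2 →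
        (∀ L ∈ C₂, ∀ g ∈ L, g.isMulti = true → g.supp ⊆ U) → o ∈ U →
        (U.card : ℝ) ≤ c * ((n : ℝ) / (Real.logb 2 n) ^ (m + 3))
          ^ ((2 : ℝ) ^ (m + 1) / ((2 : ℝ) ^ (m + 1) - 1)) →
        |parityCorrelation (C₁ ++ C₂) o| ≤ ε ∧
        ¬ ∀ x : Fin n → Bool,
            1 / 2 + ε ≤ outProb (circuitOp (C₁ ++ C₂)) o (initState x) (parityBit x)) ∧
    (∀ (m n a : ℕ) (C : List (List (Gate (Fin n ⊕ Fin a)))), entanglingDepth C ≤ m + 4 →
      ∃ C₁ C₂ : List (List (Gate (Fin n ⊕ Fin a))),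
        C = C₁ ++ C₂ ∧ entanglingDepth C₁ ≤ 2 ∧ entanglingDepth C₂ ≤ m + 2) := by
  refine ⟨?_, ?_, ?_⟩
  · intro m n a C₁ C₂ hC h₁ h₂ U o ho hU ε hε0 hε1 h
    have h1 : |parityCorrelation (C₁ ++ C₂) o| ≤ ε := by
      rcases h with ⟨x, hx, h⟩ | h
      · exact depth_split C₁ C₂ hC m x h₁ h₂ U U.card le_rfl hU o ho ε hε0 hε1 hx h
      · exact depth_split_rpow C₁ C₂ hC m h₁ h₂ U U.card le_rfl hU o ho ε hε0 hε1 h
    have h3 := le_abs_self (parityCorrelation (C₁ ++ C₂) o)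
    refine ⟨h1, fun δ hδ => ?_, fun hadv => ?_⟩
    · have h2 := adv_le_corr (C₁ ++ C₂) hC o δ hδ
      linarith
    · have h2 := adv_le_corr (C₁ ++ C₂) hC o ε hadv
      linarith
  · intro m ε hε0
    obtain ⟨c, hc, h⟩ := depth_split_asymp m ε hε0
    refine ⟨c, hc, fun n a C₁ C₂ U o hC h₁ h₂ hU ho hN =>
      ⟨h n a C₁ C₂ U o hC h₁ h₂ hU ho hN, fun hadv => ?_⟩⟩
    have h1 := h n a C₁ C₂ U o hC h₁ h₂ hU ho hN
    have h2 := adv_le_corr (C₁ ++ C₂) hC o ε hadv
    have h3 := le_abs_self (parityCorrelation (C₁ ++ C₂) o)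
    linarith
  · intro m n a C hd
    exact split_countP layerEntangling (m + 2) C 2 (by unfold entanglingDepth at hd; omega)

end Vale.Agent.Results.P368.AllDepthsFreeBase
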