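import Vale.Agent.Lib.P368.DH.FinalNA
import Vale.Agent.Lib.P368.D3.Final3
import Vale.Agent.Lib.P368.TightTop
import Vale.Agent.Lib.P368.Example

/-!
# P368: parity correlation bounds at entangling depth two, three, and at every depth

(A) Entangling depth two, unrestricted ancillas: correlation at most `162 * 2 ^ (-n / 2)`, advantage
at most `81 * 2 ^ (-n / 2)`, and circuits with correlation exactly `4 * 2 ^ (-n / 2)`.
(B) Entangling depth three: correlation at most `144 / (1 + 2 / sqrt (n + a)) ^ (n / 22)`; with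
unrestricted ancillas `144 / (1 + sqrt (2 / M)) ^ (n / 22)` if the middle layer has at most `M`
multiqubit gates or the last gate on the output qubit acts on at most `M` qubits.
(C) Entangling depth at most `m + 4`, `K = 2 ^ (m + 1)`.  Every such circuit is `C₁` followed by `C₂`,
where `C₁` has at most two and `C₂` at most `m + 2` entangling layers.  Let `U` be a set of qubits that
contains the output qubit and all multiqubit gates of `C₂`.  For every `ε > 0` there is `c > 0` such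
that `|U| ≤ c * (n / (log₂ n) ^ (m + 3)) ^ (K / (K - 1))` forces correlation at most `ε` and excludes
worst-case advantage `ε`; ancillas that are only used by `C₁` are not counted.
-/

namespace Vale.Agent.Results.P368.BestFree

open Vale.Agent.Lib.P368

theorem split_countP {α : Type} (p : α → Bool) (j : ℕ) (C : List α) :
    ∀ k : ℕ, C.countP p ≤ k + j →
      ∃ C₁ C₂ : List α, C = C₁ ++ C₂ ∧ C₁.countP p ≤ k ∧ C₂.countP p ≤ j := by
  induction C with
  | nil => intro k _; exact ⟨[], [], rfl, by simp, by simp⟩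
  | cons L rest ih =>
    intro k h
    by_cases hp : p L = true
    · rw [List.countP_cons_of_pos hp] at h
      rcases k with _ | k
      · refine ⟨[], L :: rest, rfl, by simp, ?_⟩
        rw [List.countP_cons_of_pos hp]
        omega
      · obtain ⟨R₁, R₂, e, h1, h2⟩ := ih k (by omega)
        refine ⟨L :: R₁, R₂, by rw [e]; rfl, ?_, h2⟩
        rw [List.countP_cons_of_pos hp]
        omega
    · rw [List.countP_cons_of_neg hp] at h
      obtain ⟨R₁, R₂, e, h1, h2⟩ := ih k h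
      refine ⟨L :: R₁, R₂, by rw [e]; rfl, ?_, h2⟩
      rw [List.countP_cons_of_neg hp]
      exact h1

theorem result :
    (∀ (n a : ℕ) (C : List (List (Gate (Fin n ⊕ Fin a)))), circuitValid C →
      entanglingDepth C ≤ 2 → ∀ o : Fin n ⊕ Fin a,
        |parityCorrelation C o| ≤ 162 * (2 : ℝ) ^ (-(n : ℝ) / 2) ∧
        ∀ ε : ℝ, (∀ x : Fin n → Bool,
            1 / 2 + ε ≤ outProb (circuitOp C) o (initState x) (parityBit x)) →
          ε ≤ 81 * (2 : ℝ) ^ (-(n : ℝ) / 2)) ∧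
    (∀ k : ℕ, 1 ≤ k →
      ∃ (C : List (List (Gate (Fin (2 * k + 2) ⊕ Fin 0)))) (o : Fin (2 * k + 2) ⊕ Fin 0),
        circuitValid C ∧ entanglingDepth C = 2 ∧
          |parityCorrelation C o| = 4 * (2 : ℝ) ^ (-((2 * k + 2 : ℕ) : ℝ) / 2)) ∧
    (∀ (n a : ℕ) (C : List (List (Gate (Fin n ⊕ Fin a)))), circuitValid C →
      entanglingDepth C ≤ 3 → ∀ o : Fin n ⊕ Fin a,
        |parityCorrelation C o| ≤ 144 / (1 + 2 / Real.sqrt ((n : ℝ) + a)) ^ (n / 22)) ∧
    (∀ (n a : ℕ) (C₀ C₁ C₂ C₃ : List (List (Gate (Fin n ⊕ Fin a))))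
      (L₁ L₂ L₃ : List (Gate (Fin n ⊕ Fin a))),
      circuitValid (C₀ ++ L₁ :: (C₁ ++ L₂ :: (C₂ ++ L₃ :: C₃))) →
      multiCount C₀ = 0 → multiCount C₁ = 0 → multiCount C₂ = 0 → multiCount C₃ = 0 →
      ∀ (M : ℕ) (o : Fin n ⊕ Fin a), 1 ≤ M →
        (L₂.countP Gate.isMulti ≤ M ∨ ∀ g ∈ L₃, o ∈ g.supp → g.supp.card ≤ M) →
        |parityCorrelation (C₀ ++ L₁ :: (C₁ ++ L₂ :: (C₂ ++ L₃ :: C₃))) o|
          ≤ 144 / (1 + Real.sqrt (2 / (M : ℝ))) ^ (n / 22)) ∧
    (∀ (m : ℕ) (ε : ℝ), 0 < ε → ∃ c : ℝ, 0 < c ∧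
      ∀ (n a : ℕ) (C₁ C₂ : List (List (Gate (Fin n ⊕ Fin a))))
        (U : Finset (Fin n ⊕ Fin a)) (o : Fin n ⊕ Fin a),
        circuitValid (C₁ ++ C₂) → entanglingDepth C₁ ≤ 2 → entanglingDepth C₂ ≤ m + 2 →
        (∀ L ∈ C₂, ∀ g ∈ L, g.isMulti = true → g.supp ⊆ U) → o ∈ U →
        (U.card : ℝ) ≤ c * ((n : ℝ) / (Real.logb 2 n) ^ (m + 3))
          ^ ((2 : ℝ) ^ (m + 1) / ((2 : ℝ) ^ (m + 1) - 1)) →
        |parityCorrelation (C₁ ++ C₂) o| ≤ ε ∧
        ¬ ∀ x : Fin n → Bool,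
            1 / 2 + ε ≤ outProb (circuitOp (C₁ ++ C₂)) o (initState x) (parityBit x)) ∧
    (∀ (m n a : ℕ) (C : List (List (Gate (Fin n ⊕ Fin a)))), entanglingDepth C ≤ m + 4 →
      ∃ C₁ C₂ : List (List (Gate (Fin n ⊕ Fin a))),
        C = C₁ ++ C₂ ∧ entanglingDepth C₁ ≤ 2 ∧ entanglingDepth C₂ ≤ m + 2) := by
  refine ⟨?_, ?_, ?_, ?_, ?_, ?_⟩
  · intro n a C hC hd o
    have h := depth_two_sharp C hC hd o
    refine ⟨h, fun ε hε => ?_⟩
    have h2 := adv_le_corr C hC o ε hε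
    have h3 := le_abs_self (parityCorrelation C o)
    linarith
  · intro k hk
    obtain ⟨C, o, h1, h2, h3⟩ := exists_example k hk
    refine ⟨C, o, h1, h2, ?_⟩
    rw [h3]
    have e : (-((2 * k + 2 : ℕ) : ℝ) / 2) = -((k + 1 : ℕ) : ℝ) := by
      push_cast
      ring
    rw [e, Real.rpow_neg (by norm_num), Real.rpow_natCast, pow_succ, one_div, inv_pow]
    field_simp
    norm_num
  · intro n a C hC hd o
    exact depth_three_bound C hC hd o
  · intro n a C₀ C₁ C₂ C₃ L₁ L₂ L₃ hC h₀ h₁ h₂ h₃ M o hM hL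
    rcases hL with hL | hL
    · exact depth_three_gate_bound C₀ C₁ C₂ C₃ L₁ L₂ L₃ hC h₀ h₁ h₂ h₃ M hM hL o
    · exact depth_three_fanin_bound C₀ C₁ C₂ C₃ L₁ L₂ L₃ hC h₀ h₁ h₂ h₃ M hM o hL
  · intro m ε hε0
    obtain ⟨c, hc, h⟩ := depth_split_asymp m ε hε0
    refine ⟨c, hc, fun n a C₁ C₂ U o hC h₁ h₂ hU ho hN =>
      ⟨h n a C₁ C₂ U o hC h₁ h₂ hU ho hN, fun hadv => ?_⟩⟩
    have h1 := h n a C₁ C₂ U o hC h₁ h₂ hU ho hN
    have h2 := adv_le_corr (C₁ ++ C₂) hC o ε hadv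
    have h3 := le_abs_self (parityCorrelation (C₁ ++ C₂) o)
    linarith
  · intro m n a C hd
    exact split_countP layerEntangling (m + 2) C 2 (by unfold entanglingDepth at hd; omega)

end Vale.Agent.Results.P368.BestFree
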