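import Vale.Agent.Lib.P368.TightTop
import Vale.Agent.Lib.P368.Unitary
import Vale.Agent.Lib.P368.Example

/-!
# P368: the maximal parity correlation at entangling depth two is of order `2 ^ (-n / 2)`

Upper bound `162 * 2 ^ (-n / 2)` for every circuit of entangling depth at most two (no restriction
on gates, ancillas or one-qubit layers), the resulting bound on the worst-case advantage, and for
every even `n ≥ 4` a circuit without ancillas with correlation exactly `4 * 2 ^ (-n / 2)` in
absolute value.
-/

namespace Vale.Agent.Results.P368.DepthTwoSharp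

open Vale.Agent.Lib.P368

theorem result :
    (∀ (n a : ℕ) (C : List (List (Gate (Fin n ⊕ Fin a)))), circuitValid C →
      entanglingDepth C ≤ 2 → ∀ o : Fin n ⊕ Fin a,
        |parityCorrelation C o| ≤ 162 * (2 : ℝ) ^ (-(n : ℝ) / 2) ∧
        ∀ ε : ℝ, (∀ x : Fin n → Bool,
            1 / 2 + ε ≤ outProb (circuitOp C) o (initState x) (parityBit x)) →
          ε ≤ 81 * (2 : ℝ) ^ (-(n : ℝ) / 2)) ∧
    (∀ k : ℕ, 1 ≤ k →
      ∃ (C : List (List (Gate (Fin (2 * k + 2) ⊕ Fin 0)))) (o : Fin (2 * k + 2) ⊕ Fin 0),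
        circuitValid C ∧ entanglingDepth C = 2 ∧
          |parityCorrelation C o| = 4 * (2 : ℝ) ^ (-((2 * k + 2 : ℕ) : ℝ) / 2)) := by
  constructor
  · intro n a C hC hd o
    have h := depth_two_sharp C hC hd o
    refine ⟨h, fun ε hε => ?_⟩
    have h2 := adv_le_corr C hC o ε hε
    have h3 := le_abs_self (parityCorrelation C o)
    linarith
  · intro k hk
    obtain ⟨C, o, h1, h2, h3⟩ := exists_example k hk
    refine ⟨C, o, h1, h2, ?_⟩
    rw [h3]
    have e : (-((2 * k + 2 : ℕ) : ℝ) / 2) = -((k + 1 : ℕ) : ℝ) := by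
      push_cast
      ring
    rw [e, Real.rpow_neg (by norm_num), Real.rpow_natCast, pow_succ, one_div, inv_pow]
    field_simp
    norm_num

end Vale.Agent.Results.P368.DepthTwoSharp
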